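import Crest.Agent.X212.Rsp69.Tl
import Crest.Agent.X212.Rsv69.Cfg

-- ▼ part X212/Rsv69/Tm
section

/-! Row 212, RESP (helper69): pairs of necks over the same band; time windows. -/

set_option autoImplicit false
set_option linter.unusedSectionVars false
noncomputable section
open scoped Manifold ContDiff Topology InnerProductSpace
open MeasureTheory Set Function Filter Real

namespace Crest.Agent.X212.Rsv69
open Rsp69
open An Cyf70 Dgr80 Sob92 Nd18 Nka63

variable {E3 : Type} [NormedAddCommGroup E3] [NormedSpace ℝ E3] [FiniteDimensional ℝ E3]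
  [MeasurableSpace E3] [BorelSpace E3]
  {H3 : Type} [TopologicalSpace H3] {I3 : ModelWithCorners ℝ E3 H3} [I3.Boundaryless]
  {Y : Type} [TopologicalSpace Y] [ChartedSpace H3 Y] [IsManifold I3 ∞ Y] [T2Space Y]
  [MeasurableSpace Y] [BorelSpace Y] [SecondCountableTopology Y] [CompactSpace Y]
  {κ : Type} [Fintype κ] {lam : Type} [Fintype lam] {D : YD I3 Y κ lam} {𝒟 : Type*}

theorem D_snd (D : YD I3 Y κ lam) (z : Y × ℝ) : ∑ a, D.Z.D a Prod.snd z ^ 2 = 1 := by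
  have h1 := congrFun (D_none_snd D.F.toPre (contDiff_id (𝕜 := ℝ) (E := ℝ) (n := ∞))) z
  have h2 := fun a => congrFun (D_some_snd D.F.toPre (contDiff_id (𝕜 := ℝ) (E := ℝ) (n := ∞)) a) z
  rw [Fintype.sum_option, show D.Z.D none Prod.snd z = _ from h1,
    Finset.sum_eq_zero fun a _ => by rw [show D.Z.D (some a) Prod.snd z = _ from h2 a]; simp]
  simp

theorem slab (D : YD I3 Y κ lam) (t R : ℝ) : IsCompact {x : Y × ℝ | |x.2 - t| ≤ R} ∧
    D.Z.μ.real {x | |x.2 - t| ≤ R} ≤ vY D * (2 * |R|) := by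
  have e : {x : Y × ℝ | |x.2 - t| ≤ R} = D.nk.tm ⁻¹' Icc (t - R) (t + R) := Set.ext fun x => by
    simp only [mem_ofPred_eq, abs_le, mem_preimage, nk_tm, mem_Icc]
    constructor <;> rintro ⟨h1, h2⟩ <;> constructor <;> linarith
  have s : Icc (t - R) (t + R) ⊆ D.nk.J := nk_J D ▸ subset_univ _
  rw [e]
  refine ⟨isCompact_slab D.nk s, ?_⟩
  rw [Measure.real, show D.Z.μ _ = _ from measure_slab D.nk measurableSet_Icc s, ENNReal.toReal_mul,
    Real.volume_Icc, ENNReal.toReal_ofReal']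
  exact mul_le_mul_of_nonneg_left (max_le (by linarith [le_abs_self R]) (by positivity))
    (vY_nonneg D)

variable (D 𝒟) in
/-- families of pairs of necks which contain the band `Dp p q 0` -/
structure NP where
  l : Filter 𝒟
  p : 𝒟 → Option ℝ
  q : 𝒟 → Option ℝ
  C : ℕ → ℝ
  S : 𝒟 → Bool → Mf (Option κ) lam
  K : ∀ d i, Nk D (S d i).B (S d i).G
  γ : ℝ
  ρ : 𝒟 → ℝ → ℝ
  L : ℝ
  hD : D.OK
  tz : D.Z.Tame C
  cs : ∀ a, D.Z.CBs (D.Z.D a Prod.snd) C
  tame : ∀ᶠ d in l, ∀ i, (S d i).G.F.IsVol ∧ (∃ C, (S d i).G.F.Tame C) ∧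
    Mp86.L4 (S d i).G.F.toPre L
  sub : ∀ᶠ d in l, ∀ i L, Dp (p d) (q d) L ⊆ Dp (K d i).p (K d i).q L
  γ0 : 0 < γ
  γ1 : γ ≤ 1 / 2
  lw : ∀ᶠ d in l, ∀ s t, 0 < ρ d t ∧ ρ d s ≤ exp (γ / 8 * |s - t|) * ρ d t
  off : ∀ᶠ d in l, (∀ a ∈ p d, 1 ≤ ρ d a) ∧ ∀ a ∈ q d, 1 ≤ ρ d a

namespace NP
open Rsp69.Cx Rsv69.Tw
variable (P : NP D 𝒟)

/-- the band -/
@[reducible] def cx : Cx (IC I3) (Y × ℝ) (Option κ) 𝒟 where
  l := P.l
  F _ := D.Z
  τ _ := Prod.snd
  p := P.p
  q := P.q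
  C := P.C
  v R := vY D * (2 * |R|)
  tame := .of_forall fun _ => P.tz
  sτ := .of_forall fun _ => ⟨contMDiff_snd, P.cs⟩
  vol := .of_forall fun _ t R _ => slab D t R

theorem dp (L : ℝ) : P.cx.Ev fun d z => ∀ i, z ∈ (P.K d i).ψ.source ∧
    z.2 ∈ Dp (P.K d i).p (P.K d i).q L ∧ (P.K d i).tm ((P.K d i).ψ z) = z.2 ∧
      (P.K d i).τ ((P.K d i).ψ z) = z.2 :=
  ⟨|L| + 1, by positivity, P.sub.mono fun d h z hz i =>
    have h1 : z.2 ∈ Dp _ _ 1 := Dp_mono (by linarith [abs_nonneg L]) (h i _ hz)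
    have h2 := (P.K d i).mem_src.2 (Dp_sub one_pos h1)
    have h3 := (P.K d i).tm_ψ z h2
    ⟨h2, Dp_mono (by linarith [le_abs_self L]) (h i _ hz), h3, by rw [Nk.τ, h3, tf_eq h1]⟩⟩

/-- the pair of manifolds -/
@[reducible] def tw : Tw P.cx lam where
  S := P.S
  ψ d i := (P.K d i).ψ
  κ := P.γ
  ρ := P.ρ
  L := P.L
  rt := ⟨P.γ0, .of_forall fun _ x => by
    rw [show ∑ a, _ = _ from D_snd D x]; nlinarith [P.γ0, P.γ1], ⟨by linarith [P.γ0], P.lw⟩, P.off⟩
  iso := P.tame.mono fun d h => ⟨P.hD.G.vol, fun i => ⟨(P.K d i).iso, h i⟩⟩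
  src := (P.dp 0).mono fun _ _ h i => (h i).1

variable {N : Type} [NormedAddCommGroup N] [NormedSpace ℝ N] {k n : ℕ}

theorem ext {f : Y → N} (hf : Sm I3 f) : P.tw.EC (N := fun _ => N) k fun d i => (P.K d i).ext f :=
  let ⟨_, h⟩ := cbs_ext D hf
  .fixed (.of_forall fun d i => h (P.K d i)) ((P.dp 2).mono fun d z h => by
    have e := fun i => (P.K d i).ext_ψ f (h i).1
    simp only [fun i => show (P.K d i).cut 1 z.2 = 1 from ct_one (by norm_num; exact (h i).2.1)] at e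
    exact (e _).trans (e _).symm)

theorem cut {c : ℝ} (hc : 0 < c) :
    P.tw.EC (N := fun _ => ℝ) k fun d i x => (P.K d i).cut c ((P.K d i).tm x) :=
  let ⟨_, h⟩ := cbs_cut D
  .fixed (.of_forall fun d i => h (P.K d i) c hc) ((P.dp (c + 1)).mono fun d z h => by
    have e := fun i => show (P.K d i).cut c ((P.K d i).tm ((P.K d i).ψ z)) = 1 by
      rw [(h i).2.2.1]; exact ct_one (h i).2.1
    exact (e _).trans (e _).symm)

theorem cd_of {g : P.tw.Fn} {C : ℕ → ℝ} (h : ∀ d i a, (P.tw.F d i).CBs ((P.tw.F d i).D a (g d i)) C)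
    (e : P.cx.Ev fun d x => g d true (P.tw.ψ d true x) = g d false (P.tw.ψ d false x)) :
    P.tw.Cd k g := fun a =>
  .fixed (.of_forall fun d i => h d i a) ((e.nhds.and P.tw.rel).mono fun _ _ h =>
    ((h.2.2 _).1.D (h.2.2 _).2.1 a (.of_forall fun _ => rfl)).symm.trans
      ((h.2.2 _).1.D (h.2.2 _).2.1 a h.1))

theorem dτ : P.tw.Cd k fun d i => (P.K d i).τ :=
  let ⟨_, h⟩ := cbs_Dτ D
  P.cd_of (fun d i => h (P.K d i)) ((P.dp 0).mono fun _ _ h => (h _).2.2.2.trans (h _).2.2.2.symm)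

theorem cdx {f : Y → ℝ} (hf : Sm I3 f) : P.tw.Cd k fun d i => (P.K d i).ext f :=
  let ⟨_, h⟩ := cbs_D_fn D (g := some f) (by rintro _ ⟨⟩; exact hf)
  P.cd_of (fun d i => h (P.K d i)) ((P.dp 2).mono fun d z h => by
    have e := fun i => (P.K d i).ext_ψ f (h i).1
    simp only [fun i => show (P.K d i).cut 1 z.2 = 1 from ct_one (by norm_num; exact (h i).2.1)] at e
    exact (e _).trans (e _).symm)

/-- fields which are literal on the necks -/
theorem lit {f : Y × ℝ → N} (hf : D.Z.Cb f) {u : P.tw.Sc fun _ => N}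
    (e : ∀ d i, ∀ z ∈ (P.K d i).ψ.source, u d i ((P.K d i).ψ z) = f z) : P.tw.EL k u :=
  (Pr.same P.tw.lw (Hk.of_CBs (f := fun _ => f) (.of_forall fun _ => hf.choose_spec))).congr
    ((P.dp 0).mono fun d z h i => (e d i z (h i).1).symm)

/-- densities with bounded windows -/
def WK (δ : ℝ) (w : P.tw.Fn) : Prop := ∃ b₀, ∀ᶠ d in P.l, ∀ i, Wb (P.K d i) δ b₀ (w d i)

variable {P} {δ : ℝ} {w w' : P.tw.Fn}

theorem WK.of_EC (hδ : 0 < δ) (h : P.tw.EC k w) (h0 : ∀ d i, ∀ x ∉ (P.K d i).dp 1, w d i x = 0) :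
    P.WK δ w :=
  let ⟨_, _, hu⟩ := h.u
  ⟨_, (hu.and h.q).mono fun d h i => .of_bd _ hδ (Cb.sm (h.2 i)).continuous.aestronglyMeasurable
    (h0 d i) (h.1 i)⟩

theorem WK.add (hδ : 0 < δ) (h : P.WK δ w) (h' : P.WK δ w') :
    P.WK δ fun d i x => w d i x + w' d i x := by
  obtain ⟨b₁, h⟩ := h
  obtain ⟨b₂, h'⟩ := h'
  refine ⟨b₁ + b₂, (h.and h').mono fun d h i => ?_⟩
  obtain ⟨a1, a2, a3⟩ := h.1 i
  obtain ⟨c1, c2, c3⟩ := h.2 i
  have p := fun s => (b_pos (half_pos hδ) s).le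
  have wi : WI (P.S d i).G.F.μ (P.K d i).τ (δ / 2) fun x => w d i x + w' d i x :=
    ⟨a1.τm, a1.m.add c1.m, (a1.i.add c1.i).mono' (((continuous_b _).comp_aestronglyMeasurable
      a1.τm).mul (a1.m.add c1.m).norm) (.of_forall fun x => by
        rw [norm_mul, norm_norm, Real.norm_of_nonneg (p _), Pi.add_apply, ← mul_add]
        exact mul_le_mul_of_nonneg_left (norm_add_le _ _) (p _))⟩
  refine ⟨wi, fun t => le_trans ?_ (add_le_add (a2 t) (c2 t)), fun x hx => by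
    simp only [a3 x hx, c3 x hx, add_zero]⟩
  rw [wn, wn, wn, ← integral_add (a1.norm.int (half_pos hδ) t) (c1.norm.int (half_pos hδ) t)]
  refine integral_mono (wi.norm.int (half_pos hδ) t)
    ((a1.norm.int (half_pos hδ) t).add (c1.norm.int (half_pos hδ) t)) fun x => ?_
  rw [← smul_add]
  exact smul_le_smul_of_nonneg_left (norm_add_le _ _) (p _)

/-- **the time step** -/
theorem win (hδ : P.γ ≤ 2 * δ) (h : P.tw.EL 4 w) (hw : P.WK δ w) (s : ℝ) :
    P.tw.EC (N := fun _ => ℝ) k fun d i x =>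
      wn (P.S d i).G.F.μ (P.K d i).τ δ (w d i) ((P.K d i).τ x + s) := by
  have γ0 := P.γ0
  have δ0 : 0 < δ := by linarith
  obtain ⟨b₀, hw⟩ := hw
  obtain ⟨c, -, hc⟩ := cbs_bd D
  have h1 := hw.mono fun d h i => hc (P.K d i) _ _ ((h i).bdd δ0 s)
  refine ⟨h1.mono fun _ h i => ⟨_, h i⟩, ⟨_, abs_nonneg _, h1.mono fun _ h i =>
    CB_bound (CB_abs ((h i).2 0))⟩, fun i => hk_of_CB (T := P.tw) (u := fun d i x =>
      wn (P.S d i).G.F.μ (P.K d i).τ δ (w d i) ((P.K d i).τ x + s))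
      (h1.mono fun _ h => ⟨(h i).1, (h i).2 k⟩), ?_⟩
  obtain ⟨L, hL, K₀, hK₀, h⟩ := (show P.cx.Hk P.ρ (0 + 4) _ from h.d).bd
  have h2 := ev_lw.1 (P.tw.rt.rad_in (L := L + 1) (R := 0) (by linarith) le_rfl)
  have c0 := fun j => cb_nonneg δ j
  have v0 := vY_nonneg D
  refine (Bd.hk P.tw.lw ⟨2 * (L + 1) + 0 + |s|, by positivity, Bk.time (σ := fun _ => Prod.snd) k
    (.of_forall fun _ x _ => contMDiff_snd x)
    (fun a => (Bk.of_CBs (.of_forall fun _ => P.cs a)).mono (.of_forall fun _ => subset_univ _))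
    (g := fun d t => wn (P.S d true).G.F.μ (P.K d true).τ δ (w d true) (t + s) -
      wn (P.S d false).G.F.μ (P.K d false).τ δ (w d false) (t + s))
    (K := (∑ j ∈ Finset.range (k + 1), cb δ j) * δ * (8 / δ) * (K₀ * vY D + 2 * |b₀|) *
      exp (P.γ / 8 * |s|)) ?_⟩).congr ((P.dp 0).mono fun d z h => by
        simp only [(h _).2.2.2])
  filter_upwards [hw, h, h2, P.lw, P.sub] with d hw h h2 lw sub
  have sm := fun i => ((hw i).bdd δ0 s).1
  refine ⟨(sm _).sub (sm _), fun x hx => ⟨(lw 0 _).1.le, fun j hj => ?_⟩⟩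
  obtain ⟨r1, r2, r3⟩ := h2 (x.2 + s) (Dp_near hx (by simp))
  have r0 : 0 ≤ rad P.γ P.ρ 0 (d, x.2 + s) := le_max_left _ _
  have k1 := fun i s' (hs : |s' - (x.2 + s)| ≤ _) =>
    Dp_mono (show 1 ≤ L + 1 by linarith) (sub i _ (Dp_near r1 hs))
  have hb := fun i => wi_half δ0 (hw i).wi
  have e := tdiff δ0 (hw true) (hw false) (continuous_const.mul (continuous_bd δ j))
    (bd_le_exp δ0 j) (k1 _) (k1 _) (A := K₀ * P.ρ d (x.2 + s)) (by positivity) fun z hz =>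
      ((h z (Dp_mono (by linarith) (Dp_near r1 hz))).2.2.bd).trans (by
        rw [mul_assoc]
        refine mul_le_mul_of_nonneg_left ((lw _ (x.2 + s)).2.trans ?_) hK₀
        rw [mul_comm]
        exact mul_le_mul_of_nonneg_left (exp_le_exp.2 (mul_le_mul_of_nonneg_right (by linarith)
          (abs_nonneg _))) r2.le)
  rw [iteratedDeriv_fun_sub ((sm _).of_le (by exact_mod_cast le_top)).contDiffAt
    ((sm _).of_le (by exact_mod_cast le_top)).contDiffAt, iteratedDeriv_comp_add_const,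
    iteratedDeriv_comp_add_const, (hb _).iteratedDeriv_wn δ0, (hb _).iteratedDeriv_wn δ0]
  refine e.trans ?_
  have e1 : exp (-(δ / 2 * rad P.γ P.ρ 0 (d, x.2 + s))) * b₀ ≤ P.ρ d (x.2 + s) * |b₀| :=
    (mul_le_mul_of_nonneg_left (le_abs_self _) (exp_pos _).le).trans (mul_le_mul_of_nonneg_right
      (le_trans (exp_le_exp.2 (by nlinarith)) r3) (abs_nonneg _))
  have e2 := (lw (x.2 + s) x.2).2
  rw [add_sub_cancel_left] at e2
  calc _ ≤ (∑ j ∈ Finset.range (k + 1), cb δ j) * δ * (8 / δ) *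
        ((K₀ * vY D + 2 * |b₀|) * P.ρ d (x.2 + s)) := by
        have := c0 j
        refine (mul_le_mul_of_nonneg_left (by linarith) (by positivity)).trans
          (mul_le_mul_of_nonneg_right ?_ (by positivity))
        gcongr
        exact Finset.single_le_sum (fun j _ => c0 j) (Finset.mem_range.2 (Nat.lt_succ_of_le hj))
    _ ≤ _ := by
        have := Finset.sum_nonneg fun j (_ : j ∈ Finset.range (k + 1)) => c0 j
        rw [← mul_assoc, mul_assoc _ (exp _)]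
        gcongr

end NP

end Crest.Agent.X212.Rsv69
end
end

-- ▼ part X212/Rsv69/Nk

/-! Row 212, RESP (helper69): the neck terms of two configurations which are close on a band. -/

set_option autoImplicit false
set_option linter.unusedSectionVars false
noncomputable section
open scoped Manifold ContDiff Topology InnerProductSpace
open MeasureTheory Set Function Filter Real

namespace Crest.Agent.X212.Rsv69
open Rsp69
open An Cyf70 Dgr80 Sob92 Nd18 Nka63
open Cyc79 (Cy)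

theorem contDiff_nr : ContDiff ℝ ∞ fun t : ℝ => t / √(1 + t ^ 2) :=
  contDiff_id.div ((contDiff_const.add (contDiff_id.pow 2)).sqrt fun _ => by positivity)
    fun _ => by positivity

theorem contDiff_out {C : YTC} (h : ContDiff ℝ ∞ C.k) : ContDiff ℝ ∞ C.out.k :=
  (contDiff_nr.comp (contDiff_apply ℝ ℝ (0 : Fin (C.m + 1)))).mul
    (h.comp (contDiff_pi.2 fun i => contDiff_apply ℝ ℝ i.succ))

variable {E3 : Type} [NormedAddCommGroup E3] [NormedSpace ℝ E3] [FiniteDimensional ℝ E3]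
  [MeasurableSpace E3] [BorelSpace E3]
  {H3 : Type} [TopologicalSpace H3] {I3 : ModelWithCorners ℝ E3 H3} [I3.Boundaryless]
  {Y : Type} [TopologicalSpace Y] [ChartedSpace H3 Y] [IsManifold I3 ∞ Y] [T2Space Y]
  [MeasurableSpace Y] [BorelSpace Y] [SecondCountableTopology Y] [CompactSpace Y]
  {κ : Type} [Fintype κ] {lam : Type} [Fintype lam] {D : YD I3 Y κ lam} {𝒟 : Type*}

theorem contDiff_cx (N : ND Y lam) : ContDiff ℝ ∞ N.cx :=
  (contDiff_pi.2 fun _ => contDiff_apply ℝ ℝ _).prodMk (contDiff_pi.2 fun j =>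
    Complex.equivRealProdCLM.symm.contDiff.comp
      ((contDiff_apply ℝ ℝ (Sum.inr (Sum.inl j) : N.J)).prodMk (contDiff_apply ℝ ℝ _)))

/-- convolution in time as a window integral -/
theorem cv_eq {S : Mf (Option κ) lam} (K : Nk D S.B S.G) (δ : ℝ) (g : ℝ → ℝ) (x : S.M) :
    cv δ (fun t => K.cut 3 t * g t) (K.τ x) * K.χ x = (vY D)⁻¹ *
      wn S.G.F.μ K.τ δ (fun z => K.cut 3 (K.τ z) * g (K.τ z)) (K.τ x + 0) * K.χ x := by
  by_cases h : K.χ x = 0
  · simp [h]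
  have : Nonempty Y := ⟨(K.ψ.symm x).1⟩
  have := openPos D.F.toPre
  have h0 : vY D ≠ 0 :=
    (ENNReal.toReal_pos (isOpen_univ.measure_pos _ univ_nonempty).ne' (measure_ne_top _ _)).ne'
  have h1 : ∀ s, K.cut 3 s * K.cut 1 s = K.cut 3 s := fun s => by
    by_cases e : s ∈ Dp K.p K.q 3
    · rw [show K.cut 1 s = 1 from ct_one (Dp_mono (by norm_num) e), mul_one]
    · rw [show K.cut 3 s = 0 from ct_zero e, zero_mul]
  have h2 := integral_time_χ K fun s => b δ (s - K.τ x) * (K.cut 3 s * g s)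
  have h3 : ∀ s, b δ (s - K.τ x) * (K.cut 3 s * g s) * K.cut 1 s =
      b δ (s - K.τ x) * (K.cut 3 s * g s) := fun s => by
    linear_combination (b δ (s - K.τ x) * g s) * h1 s
  simp only [χ_eq K, h3] at h2
  rw [wn, add_zero]
  simp only [smul_eq_mul]
  rw [h2, inv_mul_cancel_left₀ h0, cv]
  congr 2
  funext t
  rw [← b_neg, neg_sub, mul_comm]

namespace NP
open Rsp69.Cx Rsv69.Tw
variable {P : NP D 𝒟} {n₀ : 𝒟 → ℕ} {j k n : ℕ} (c : P.tw.CF n₀) (N : ND Y lam)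

theorem compF {α : Type} [Fintype α] {g : (α → ℝ) → ℝ} (hg : ContDiff ℝ ∞ g) (hj : 8 ≤ j)
    {u : α → P.tw.Fn} (h : ∀ a, P.tw.EC j (u a)) :
    P.tw.EC (N := fun _ => ℝ) j fun d i x => g fun a => u a d i x := by
  classical
  exact EC.comp (hg.comp (PiLp.continuousLinearEquiv 2 ℝ fun _ : α => ℝ).contDiff) hj
    ((EC.sum Finset.univ fun a _ => (h a).clm (L := fun _ => sgl ℝ a) (.const _)).congr'
      fun _ _ _ => sum_sgl _)

variable (P) in
theorem cd : ∀ {g : Option (Y → ℝ)}, OF I3 g → P.tw.Cd j fun d i => (P.K d i).fn g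
  | none, _ => P.dτ
  | some f, hg => P.cdx (hg f rfl)

variable (P) in
theorem lt : ∀ {t : YL Y}, t.OK I3 → P.tw.LtY j fun d i => (P.K d i).lt t
  | .mul _, ht => .mul (P.ext ht)
  | .cl _, ht => .cl (P.cd ht)
  | .im, _ => .im
  | .G, _ => .G

variable (P) in
theorem la : ∀ {t : La Y}, laOK I3 t → P.tw.LaY j fun d i => (P.K d i).la t
  | .mul _, ht => .mul (P.ext ht)
  | .G, _ => .G

variable (P) in
theorem sw {u : List (YL Y)} (hu : ∀ t ∈ u, YL.OK I3 t) :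
    Fa (P.tw.LtY j) fun d i => u.map (P.K d i).lt := .list fun t ht => P.lt (hu t ht)

variable (P) in
theorem las {u : List (La Y)} (hu : ∀ t ∈ u, laOK I3 t) :
    Fa (P.tw.LaY j) fun d i => u.map (P.K d i).la := .list fun t ht => P.la (hu t ht)

/-- the cyclic seeds -/
def NC (j : ℕ) : Prop :=
  ∀ e : Cy Y, e.OK D.F → c.SedS j fun d i => ((P.K d i).cyc e).sed (P.tw.F d i)

/-- the hypotheses on a pair of configurations -/
structure NH (j : ℕ) : Prop where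
  o : c.OK (fun d i => (P.K d i).dp 1) j
  nd : N.OK D
  γ : P.γ ≤ 2 * N.δ
  p : P.tw.EL j c.p
  ew : P.WK N.δ fun d i x => (P.K d i).χ4 x *
    ‖(P.K d i).χ4 x • nt (P.tw.F d i) (c.W d i) (P.K d i).τ (c.Φ d i) x‖ ^ 2

namespace NH
variable {c N} (h : NH c N j)
include h

theorem h7 : 7 ≤ j := h.o.h7

theorem om : P.tw.EL (N := c.SE) j fun d i => (c.m d i).om (P.S d i).B :=
  have m : ∀ {u v : P.tw.Sc c.SE}, P.tw.EL j u → P.tw.EL j v →
      P.tw.EL (N := c.SE) j fun d i x => u d i x * v d i x := fun hu hv =>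
    have e := hu.bil h.h7 le_rfl (B := fun d => ContinuousLinearMap.mul ℝ (c.SE d))
      (.of_le 1 fun d => ContinuousLinearMap.opNorm_mul_le ℝ (c.SE d)) hv
    e
  have r := fun a => (h.o.ρ a).el
  (EC.const (c := fun _ => (1 / 24 : ℝ)) (.const _)).el.smul h.h7 le_rfl
    (.sum _ fun a _ => .sum _ fun a' _ => .sum _ fun a'' _ => .sum _ fun a''' _ =>
      (P.lit (Cht98.Cb_fst _ (Cb_of_compact (sm_slice_fst (P.hD.B.so a a' a'' a''') 0)))
        fun d i => (P.K d i).o a a' a'' a''').smul h.h7 le_rfl (m (m (m (r _) (r _)) (r _)) (r _)))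

theorem pp : P.tw.EL (N := c.SE) j fun d i => (c.m d i).pp (P.S d i).B :=
  (EC.const (c := fun _ => (1 / 2 : ℝ)) (.const _)).el.smul h.h7 le_rfl (h.p.sub h.om)

theorem pm : P.tw.EL (N := c.SE) j fun d i => (c.m d i).pm (P.S d i).B :=
  (EC.const (c := fun _ => (1 / 2 : ℝ)) (.const _)).el.smul h.h7 le_rfl (h.p.add h.om)

theorem sd (s t : Option κ × Option κ) :
    P.tw.EL (N := fun _ => ℝ) j fun d i x => (P.S d i).B.sd x s t :=
  have p := fun a b => (⟨_, P.tz.P a b⟩ : D.Z.Cb (D.Z.P a b))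
  have hf := fun {f : Y × ℝ → ℝ} (hf : D.Z.Cb f) => Cb_smul (Cb_const (1 / 2 : ℝ)) hf
  P.lit (hf (Cb.add (hf (Cb.sub (Cb_smul (p s.1 t.1) (p s.2 t.2)) (Cb_smul (p s.1 t.2) (p s.2 t.1))))
    (hf (Cht98.Cb_fst _ (Cb_of_compact (sm_slice_fst (P.hD.B.so s.1 s.2 t.1 t.2) 0))))))
    fun d i z hz => by
      simp only [Base.sd, Base.a2, Base.st, (P.K d i).P _ _ z hz, (P.K d i).o _ _ _ _ z hz,
        smul_eq_mul, ← P.hD.G.P]
      show _ = 1 / 2 * (1 / 2 * (D.G.F.P _ _ z * D.G.F.P _ _ z - D.G.F.P _ _ z * D.G.F.P _ _ z) +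
        1 / 2 * D.B.o _ _ _ _ z)
      ring

theorem p2 {u : P.tw.Sc c.S2} (hu : P.tw.EL j u) :
    P.tw.EL (N := c.S2) j fun d i x => (c.m d i).p2 (P.S d i).B x (u d i x) :=
  have e := EL.toLp (V := c.SA) fun s => EL.sum Finset.univ fun t _ => (h.sd s t).smul h.h7 le_rfl
    (h.o.pg.el.app h.h7 le_rfl (hu.proj t))
  e.congr' fun _ _ _ => PiLp.ext fun _ => (Wz78.idx_apply ..).symm

/-- the densities are cut-off densities of the calculus -/
theorem den (hC : NC c j) (k : N.J) : ∃ e, c.DenS j e ∧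
    ∀ d i, (N.dg (P.K d i)).d k = dcut (P.K d i).χ (e d i) := by
  have o := h.o
  rcases k with k | k | k
  · have := h.nd.d0 k
    cases e : N.d0 k with
    | sw u v =>
      rw [e] at this
      exact ⟨_, o.denSw o.pk_one (P.sw this.1) (P.sw this.2), fun i y => by
        simp only [ND.dg, Sum.elim_inl, e]; rfl⟩
    | cy d w d' w' =>
      rw [e] at this
      exact ⟨_, .sed o.h7 (o.sedWd (hC d this.1) (P.las this.2.1))
        (o.sedWd (hC d' this.2.2.1) (P.las this.2.2.2)), fun i y => by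
        simp only [ND.dg, Sum.elim_inl, e]; rfl⟩
  · obtain ⟨h1, h2, h3⟩ := h.nd.d2 k
    exact ⟨_, o.denSw (o.pk_re (P.ext h1)) (P.sw h2) (P.sw h3), fun _ _ => rfl⟩
  · obtain ⟨h1, h2, h3⟩ := h.nd.d2 k
    exact ⟨_, o.denSw (o.pk_im (P.ext h1)) (P.sw h2) (P.sw h3), fun _ _ => rfl⟩

theorem winC {w : P.tw.Fn} (hw : P.tw.EC j w) (h0 : ∀ d i, ∀ x ∉ (P.K d i).dp 1, w d i x = 0) :
    P.tw.EC (N := fun _ => ℝ) j fun d i x =>
      wn (P.S d i).G.F.μ (P.K d i).τ N.δ (w d i) ((P.K d i).τ x + 0) :=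
  win h.γ (hw.el.of_le (by have := h.h7; omega)) (.of_EC h.nd.δ0 hw h0) 0

theorem β (hC : NC c j) (k : N.J) : P.tw.EC (N := fun _ => ℝ) j fun d i x =>
    (N.dg (P.K d i)).β (P.tw.F d i) (c.c d i) k ((P.K d i).τ x) * (P.K d i).χ x := by
  choose e d1 d2 using h.den hC
  have sm : ContDiff ℝ ∞ fun v => fderiv ℝ (fun x => N.φ (N.cx x)) v (Pi.single k 1) :=
    ((h.nd.sm.comp (contDiff_cx N)).fderiv_right (m := ∞) le_rfl).clm_apply contDiff_const
  have h1 := (P.cut (c := 3) (by norm_num)).mul h.h7 (compF sm h.o.hn fun k => h.winC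
    (w := fun d i => ((N.dg (P.K d i)).d k).h (c.c d i))
    (((P.cut one_pos).mul h.h7 (d1 k).h).congr' fun i y x => by rw [d2]; rfl)
    fun i y x hx => by rw [d2]; exact mul_eq_zero_of_left ((P.K i y).χ_zero hx) _)
  refine (((EC.const (c := fun _ => (vY D)⁻¹) (.const _)).mul h.h7 (h.winC h1 fun i y x hx =>
    mul_eq_zero_of_left (ct_zero fun e => hx (Dp_mono (by norm_num) e)) _)).mul h.h7
      (P.cut one_pos)).congr' fun i y x => ((cv_eq (P.K i y) N.δ _ x).trans ?_).symm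
  simp only [add_zero, (P.K i y).cut_τ (show (1 : ℝ) ≤ 3 by norm_num)]
  rfl

theorem gA (hC : NC c j) : P.tw.EL (N := c.S1) j fun d i =>
    (N.dg (P.K d i)).gA (P.tw.F d i) (c.c d i) := EL.sum Finset.univ fun k _ =>
  let ⟨_, d1, d2⟩ := h.den hC k
  (d1.gA _ (h.β hC k)).congr' fun i y x => by rw [d2]; rfl

theorem gP (hC : NC c j) : P.tw.EL (N := c.SV) j fun d i =>
    (N.dg (P.K d i)).gP (P.tw.F d i) (c.c d i) := EL.sum Finset.univ fun k _ =>
  let ⟨_, d1, d2⟩ := h.den hC k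
  (d1.gP _ (h.β hC k)).congr' fun i y x => by rw [d2]; rfl

theorem q1D (hC : NC c j) :
    P.tw.EL (N := c.SV) j fun d i => (N.q1 (n := n) (P.K d i)).D (c.c d i) :=
  have e1 := h.pp.app (N := c.SV) (N' := c.SV) h.h7 le_rfl (h.gP hC)
  have e2 := fun a => (h.o.ρ a).el.app (N := c.SV) (N' := c.SV) h.h7 le_rfl e1
  have e := (EL.sum Finset.univ fun a _ => (P.dτ a).el.smul h.h7 le_rfl (e2 a)).neg
  e.congr' fun _ _ _ => rfl

theorem q1C (hC : NC c j) :
    P.tw.EL (N := c.S2) j fun d i => (N.q1 (n := n) (P.K d i)).C (c.c d i) :=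
  have e := EL.toLp (V := c.SA) fun s : Option κ × Option κ =>
    (P.dτ s.1).el.smul h.h7 le_rfl ((h.gA hC).proj s.2)
  have e' := (EC.const (c := fun _ => (-8 : ℝ)) (.const _)).el.smul h.h7 le_rfl (h.p2 e)
  e'

theorem wew (s : ℝ) : P.tw.EC (N := fun _ => ℝ) j fun d i x =>
    wn (P.S d i).G.F.μ (P.K d i).τ N.δ (N.ew (P.K d i) (c.c d i)) ((P.K d i).τ x + s) := by
  have χ := fun {j} => P.cut (k := j) (c := 4) (by norm_num)
  have z := fun d i x (hx : x ∉ (P.K d i).dp 1) => show (P.K d i).χ4 x = 0 from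
    ct_zero fun e => hx (Dp_mono (by norm_num) e)
  have h1 := χ.mul h.h7 (EC.sum Finset.univ fun k _ =>
    have := h.o.cvY χ z P.dτ (P.cdx (h.nd.sy k)); this.inner h.h7 this)
  have h2 := χ.el.smul le_rfl le_rfl (h.o.ntΦ (k := 7) h.o.hn P.dτ)
  have h3 := χ.el.smul le_rfl le_rfl (h2.inner le_rfl h2)
  simp only [real_inner_self_eq_norm_sq] at h1 h3
  have e := win (k := j) h.γ ((h1.el.of_le (by have := h.h7; omega)).add (h3.of_le (by omega)))
    ((WK.of_EC h.nd.δ0 h1 fun d i x hx => mul_eq_zero_of_left (z d i x hx) _).add h.nd.δ0 h.ew) s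
  simp only [smul_eq_mul, ← mul_add] at e
  exact e

theorem tc {C : YTC} (hC : ContDiff ℝ ∞ C.k) : P.tw.EC (N := fun _ => ℝ) j fun d i x =>
    (N.tc (P.K d i) C).val (P.tw.F d i) (P.K d i).τ N.δ (c.c d i) ((P.K d i).τ x) :=
  compF (hC.comp (contDiff_pi.2 fun i => contDiff_nr.comp (contDiff_apply ℝ ℝ i))) h.o.hn
    fun i => h.wew (C.s i)

theorem tl {u : List (YL Y ⊕ YTC)} (hu : tlOK I3 u) : Fa (P.tw.LtY j) fun d i =>
    (u.map (N.tl (P.K d i))).map (Dgr80.tl (P.tw.F d i) (P.K d i).τ N.δ (c.c d i)) := by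
  simp only [List.map_map]
  refine .list fun t ht => ?_
  have := hu t ht
  rcases t with t | C
  · exact P.lt this
  · exact .mul ((P.cut one_pos).mul h.h7 (h.tc this.1))

theorem ta {u : List (La Y ⊕ YTC)} (hu : taOK I3 u) : Fa (P.tw.LaY j) fun d i =>
    (u.map (N.ta (P.K d i))).map (Dgr80.ta (P.tw.F d i) (P.K d i).τ N.δ (c.c d i)) := by
  simp only [List.map_map]
  refine .list fun t ht => ?_
  have := hu t ht
  rcases t with t | C
  · exact P.la this
  · exact .mul ((P.cut one_pos).mul h.h7 (h.tc this.1))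

variable {T : YT Y} (hT : T.OK I3)
include hT

theorem oc : P.tw.EC (N := fun _ => ℝ) j fun d i => N.oc (P.K d i) T (c.c d i) :=
  ((P.cut (c := 3) (by norm_num)).mul h.h7
    (h.tc (contDiff_out (C := T.C) (by cases T <;> exact hT.1.1)))).congr'
    fun i y x => by rw [ND.oc, (P.K i y).cut_τ (by norm_num)]

theorem tD : P.tw.EL (N := c.SV) j fun d i =>
    (c.c d i).tD (P.S d i).B (P.tw.F d i) (N.tm (P.K d i) (c.c d i) n T) := by
  cases T with
  | lin C u => exact h.pm.app h.h7 le_rfl (h.o.sw (h.tl hT.2)).el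
  | _ => exact EL.zero

theorem tC : P.tw.EL (N := c.S2) j fun d i =>
    (c.c d i).tC (P.S d i).B (P.tw.F d i) (N.tm (P.K d i) (c.c d i) n T) := by
  cases T with
  | lin C u => exact EL.zero
  | ad C g u v l =>
    obtain ⟨-, h1, h2, h3, h4⟩ := hT
    exact h.p2 (h.o.wedge P.dτ (P.cdx h1) (h.o.wdA (h.ta h4) (h.o.qY (h.tl h2) (h.tl h3))).el)
  | cv C g f g1 g2 l =>
    obtain ⟨-, h1, h2, h3, h4, h5⟩ := hT
    exact h.p2 (h.o.wedge P.dτ (P.cdx h1) (h.o.wdA (h.ta h5)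
      (h.o.cvY (P.ext h2) (fun d i _ => (P.K d i).ext_zero f) (P.cd h3) (P.cd h4))).el)

theorem q2D : P.tw.EL (N := c.SV) j fun d i => (N.q2 (n := n) (P.K d i) T).D (c.c d i) :=
  have e := (h.oc hT).el.smul h.h7 le_rfl (EL.nrm (V := c.SV) h.o.hn (h.tD (n := n) hT))
  e

theorem q2C : P.tw.EL (N := c.S2) j fun d i => (N.q2 (n := n) (P.K d i) T).C (c.c d i) :=
  have e := (h.oc hT).el.smul h.h7 le_rfl
    (EL.nrm (V := c.S2) h.o.hn (h.tC (n := n) hT))
  e

end NH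
end NP

end Crest.Agent.X212.Rsv69
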