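import Crest.Agent.X212.Rsv69.Hd
import Crest.Agent.X212.Rsv69.Nk

-- ▼ part X212/Rsv69/Bs
section

/-! Row 212, RESP (helper69): the base fields of the cyclic seeds of a pair are close. -/

set_option autoImplicit false
set_option linter.unusedSectionVars false
noncomputable section
open scoped Manifold ContDiff Topology InnerProductSpace
open MeasureTheory Set Function Filter Real

namespace Crest.Agent.X212.Rsv69
open Rsp69
open An Sob92 Wz78 Dgr80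
open Cyc79 (KK ct fb cf bs aA amp Pp Pq QI Sep SepN cf_zero cf_one)
open ContinuousLinearMap (adjoint)

theorem norm_iso {K K' : Type} [NormedAddCommGroup K] [InnerProductSpace ℝ K]
    [NormedAddCommGroup K'] [InnerProductSpace ℝ K'] {e : K →L[ℝ] K'}
    (h : ∀ a b, ⟪e a, e b⟫_ℝ = ⟪a, b⟫_ℝ) : ‖e‖ ≤ 1 := e.opNorm_le_bound zero_le_one fun a => by
  rw [one_mul, norm_eq_sqrt_real_inner, h, ← norm_eq_sqrt_real_inner]

theorem amp_split {V U : Type} [NormedAddCommGroup V] [NormedSpace ℝ V] [NormedAddCommGroup U]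
    [NormedSpace ℝ U] (L : U →L[ℝ] V →L[ℝ] V) {p q : U} {a b : V} (t : ℝ) (ha : L p a = a)
    (hb : L q b = b) : L p (t • a - t • b) + L (p - q) (t • b) = t • a - t • b := by
  simp [ha, hb, smul_sub]

theorem norm_amp1 {K ν : Type} [NormedAddCommGroup K] [InnerProductSpace ℝ K] [CompleteSpace K]
    [Fintype ν] [DecidableEq ν] : ‖amp (κ := ν) K‖ ≤ 1 :=
  ContinuousLinearMap.opNorm_le_bound₂ _ zero_le_one fun S v =>
    (Cyc79.norm_amp S v).trans_eq (by rw [one_mul])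

variable {E : Type} [NormedAddCommGroup E] [NormedSpace ℝ E] [FiniteDimensional ℝ E]
  [MeasurableSpace E] [BorelSpace E]
  {HM : Type} [TopologicalSpace HM] {I : ModelWithCorners ℝ E HM} [I.Boundaryless]
  {M : Type} [TopologicalSpace M] [ChartedSpace HM M] [IsManifold I ∞ M]
  [MeasurableSpace M] [T2Space M] [BorelSpace M] [SecondCountableTopology M]
  {ι : Type} [Fintype ι] {𝒟 : Type*} {lam : Type} [Fintype lam]

/-- nested cut-offs between the levels `5 / 2` and `3` -/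
def th (j : ℕ) (φ : M → ℝ) : M → ℝ := cf (8 * 2 ^ j) (3 - (2 ^ j)⁻¹ / 2) φ

section th
variable {j : ℕ} {φ : M → ℝ} {x : M}

theorem th_one (h : 3 - 3 / 8 * (2 ^ j)⁻¹ ≤ φ x) : th j φ x = 1 := cf_one <| by
  have p : (0 : ℝ) < 2 ^ j := by positivity
  nlinarith [mul_inv_cancel₀ p.ne', mul_le_mul_of_nonneg_left h p.le]

theorem th_ts (hφ : Continuous φ) (h : x ∈ tsupport (th j φ)) : 3 - (2 ^ j)⁻¹ / 2 ≤ φ x :=
  closure_minimal (t := {x | 3 - (2 ^ j)⁻¹ / 2 ≤ φ x}) (fun _ h => le_of_not_ge fun e =>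
    mem_support.1 h (cf_zero (by positivity) e)) (isClosed_le continuous_const hφ) h

theorem th_two (hφ : Continuous φ) (h : x ∈ tsupport (th j φ)) : 2 < φ x := by
  have : (2 ^ j : ℝ)⁻¹ ≤ 1 := inv_le_one_of_one_le₀ (one_le_pow₀ one_le_two)
  linarith [th_ts hφ h]

theorem th_ev (hφ : Continuous φ) (h : x ∈ tsupport (th (j + 1) φ)) : th j φ =ᶠ[𝓝 x] fun _ => 1 := by
  have := th_ts hφ h
  rw [pow_succ, mul_inv] at this
  have p : (0 : ℝ) < (2 ^ j)⁻¹ := by positivity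
  exact (hφ.continuousAt.eventually_const_lt (u := 3 - 3 / 8 * (2 ^ j)⁻¹) (by linarith)).mono
    fun y hy => th_one hy.le

theorem contDiff_cf (k s : ℝ) : ContDiff ℝ ∞ fun t : ℝ => smoothTransition (k * (t - s)) :=
  smoothTransition.contDiff.comp (by fun_prop)

end th

theorem lb_res {ν : Type} [Fintype ν] [DecidableEq ν] {F : Fr I M ι}
    {A : ι → M → En ν} {p : M → En ν} (h : Pp F A p) {f' : M → ℝ}
    (hf' : F.Cb f') {K : ℝ} (hK : ∀ x, ‖f' x‖ ≤ K) (u : Sec I (triv M (Eu ν)))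
    (hu : ‖F.toH 0 _ u‖ ≤ 1) : LB F.μ (fun y => ‖u.1 y‖ ^ 2) 1 ∧
      F.IsRes A (fun y => f' y • p y (u.1 y)) (F.res A fun y => f' y • p y (u.1 y)) ∧
      LB F.μ (fun y => ‖F.res A (fun y => f' y • p y (u.1 y)) y‖ ^ 2) (8 * (K ^ 2 * 1)) := by
  have l : LB F.μ (fun y => ‖u.1 y‖ ^ 2) 1 := ⟨(u.2.1.continuous.norm.pow 2).integrable_of_hasCompactSupport
    (u.2.2.1.mono fun y hy e => hy (by simp [e])), by
      rw [← Cyc79.sq_toH]; exact pow_le_one₀ (norm_nonneg _) hu⟩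
  obtain ⟨h1, h2⟩ := Cyc79.is_xO h.toOk (Cb_const 1) hf' h.cp u
  have c : Continuous fun y => f' y • p y (u.1 y) :=
    (Cb.sm hf').continuous.smul (h.sm.clm_apply u.2.1).continuous
  have c' := h1.1.continuous
  refine ⟨l, h1, (wk0 (g := fun _ _ => 0) (exists_cut (Exh.of_tame h.tame.choose_spec)) h.mc wg_one
    h1.1 c (fun _ => contMDiff_const) (fun x => by simp [h1.2.2 x, dvn, nab])
    (by simpa using (memLp_two_iff_integrable_sq_norm h2.memLp.1).1 h2.memLp)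
    ((l.mul (sq_nonneg K)).mono (Continuous.aestronglyMeasurable (by fun_prop))
      (fun _ => by positivity) fun x => ?_)).mono (Continuous.aestronglyMeasurable (by fun_prop))
    (fun _ => sq_nonneg _) fun x => by simpa using g2_nonneg x⟩
  simp only [one_mul, norm_zero, sq, mul_zero, Finset.sum_const_zero, add_zero, norm_smul]
  have := (norm_nonneg _).trans (hK x)
  rw [mul_mul_mul_comm]
  gcongr <;> first | exact hK x | exact h.norm_le _ _

theorem cu_of_dv {F : Fr I M ι} {φ : M → ℝ} {D : ℕ → ℝ} {c : ℝ} (hφ : F.CBs φ D)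
    (h : ∀ a x, F.D a φ x ≠ 0 → |F.dv a x| ≤ |c|) :
    Cyc79.Cu F (Fintype.card ι * (D 2 ^ 2 + (1 + |c|) * |D 2|)) φ := by
  have h2 : ∀ a y, |F.D a φ y| ≤ |D 2| := fun a y => (hφ.2 2 [a] one_le_two y).trans (le_abs_self _)
  refine ⟨hφ.1, fun x => ?_, fun x => (Finset.abs_sum_le_sum_abs _ _).trans ?_⟩ <;>
    refine (Finset.sum_le_card_nsmul _ _ _ fun a _ => ?_).trans
      (by rw [nsmul_eq_mul, Finset.card_univ])
  · exact le_add_of_le_of_nonneg (sq_le_sq.2 (h2 a x)) (by positivity)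
  · have h1 : |F.D a (F.D a φ) x| ≤ |D 2| := (hφ.2 2 [a, a] le_rfl x).trans (le_abs_self _)
    have h3 : |F.dv a x| * |F.D a φ x| ≤ |c| * |D 2| := by
      by_cases e : F.D a φ x = 0
      · rw [e, abs_zero, mul_zero]; positivity
      · exact mul_le_mul (h a x e) (h2 a x) (abs_nonneg _) (abs_nonneg _)
    refine (abs_add_le (F.D a (F.D a φ) x) (F.dv a x * F.D a φ x)).trans ?_
    rw [abs_mul]
    nlinarith [sq_nonneg (D 2)]

theorem hk_of_norm {X : Cx I M ι 𝒟} {N : 𝒟 → Type} [∀ d, NormedAddCommGroup (N d)]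
    [∀ d, NormedSpace ℝ (N d)] {w w' : 𝒟 → ℝ → ℝ} {k : ℕ} {f : ∀ d, M → N d} {c K : ℝ}
    (h : X.Hk w' k f) (hw : X.Lw c w) (hK : 0 ≤ K)
    (hb : X.Ev fun d x => ‖f d x‖ ≤ K * w d (X.τ d x)) : X.Hk w 0 f :=
  let ⟨L, hL, h⟩ := h.sa.and hb
  Cx.Bd.hk hw ⟨L, hL, K, hK, (h.and hw.2).mono fun _ h x hx =>
    ⟨(h.2 0 _).1.le, (h.1 x hx).1, .zero' (h.1 x hx).2⟩⟩

namespace Tw
open Rsp69.Cx
variable {X : Cx I M ι 𝒟} {T : Tw X lam} {n : ℕ}
  {ν : 𝒟 → Type} [∀ d, Fintype (ν d)] [∀ d, DecidableEq (ν d)]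
  {A : ∀ d i, ι → (T.S d i).M → En (ν d)} {p : T.Sc fun d => En (ν d)} {f f' φ : T.Fn}
  {φ₀ : 𝒟 → M → ℝ} {C : ℕ → ℝ}

variable (T) in
/-- pairs of connections with a parallel projector -/
structure PA (n : ℕ) (A : ∀ d i, ι → (T.S d i).M → En (ν d)) (p : T.Sc fun d => En (ν d)) :
    Prop where
  hn : 8 ≤ n
  pp : ∀ᶠ d in X.l, ∀ i, Pp (T.F d i) (A d i) (p d i) ∧ Pq (T.F d i) (A d i) (p d i)
  A : ∀ a, T.EL n fun d i => A d i a
  p : T.EL n p

variable (T) in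
/-- a separating function -/
structure Sp (n : ℕ) (f' φ : T.Fn) (φ₀ : 𝒟 → M → ℝ) (C : ℕ → ℝ) : Prop where
  r : T.EC n f'
  cb : ∀ᶠ d in X.l, (X.F d).CBs (φ₀ d) C ∧ ∀ i, (T.F d i).CBs (φ d i) C ∧
    ∀ x, f' d i x ≠ 0 → φ d i x ≤ 0
  ev : X.Ev fun d x => ∀ i, φ d i (T.ψ d i x) = φ₀ d x
  dv : ∀ᶠ d in X.l, ∀ i a x, (T.F d i).D a (φ d i) x ≠ 0 → |(T.F d i).dv a x| ≤ |X.C 0|

variable (T) in
/-- separated supports -/
def SepT (n : ℕ) (f f' : T.Fn) : Prop := T.EC n f ∧ ∃ φ φ₀ C, T.Sp n f' φ φ₀ C ∧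
  ∀ᶠ d in X.l, ∀ i x, f d i x ≠ 0 → 3 ≤ φ d i x

namespace Sp
variable (s : T.Sp n f' φ φ₀ C)
include s

theorem bk (j k : ℕ) : Bk (N := fun _ => ℝ) (pre X.F) X.l (un 𝒟 M) 1 k fun d => th j (φ₀ d) :=
  have e := Bk.comp k (contDiff_cf (8 * 2 ^ j) (3 - (2 ^ j)⁻¹ / 2)) (S := un 𝒟 M)
    (.of_CBs (s.cb.mono fun _ h => h.1)); e

theorem one (j : ℕ) : ∀ᶠ d in X.l, ∀ x ∈ tsupport (th (j + 1) (φ₀ d)),
    th j (φ₀ d) =ᶠ[𝓝 x] fun _ => 1 := s.cb.mono fun _ h _ => th_ev h.1.1.continuous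

theorem sep : ∀ᶠ d in X.l, ∀ i, Sep (T.F d i).toPre (cf 1 1 (φ d i)) (f' d i) :=
  (s.cb.and s.r.q).mono fun d h i => ⟨Cb_nem (contDiff_cf _ _) ⟨_, (h.1.2 i).1⟩, h.2 i, φ d i,
    ⟨_, (h.1.2 i).1⟩, fun _ e => le_of_not_ge fun k => e (cf_zero zero_le_one k), (h.1.2 i).2⟩

theorem two (j : ℕ) : X.Ev fun d x => x ∈ tsupport (th j (φ₀ d)) → ∀ i, f' d i (T.ψ d i x) = 0 ∧
    ∀ᶠ y in 𝓝 (T.ψ d i x), cf 1 1 (φ d i) y = 1 :=
  (s.ev.and (.of_ev (P := fun _ _ => _) (s.cb.mono fun _ h _ => h))).mono fun d x h hx i =>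
    have e : 2 < φ d i (T.ψ d i x) := h.1 i ▸ th_two h.2.1.1.continuous hx
    ⟨by_contra fun k => by linarith [(h.2.2 i).2 _ k],
      ((h.2.2 i).1.1.continuous.continuousAt.eventually_const_lt e).mono fun y hy =>
        cf_one (by linarith)⟩

theorem cm {𝒟' : Type*} (σ : 𝒟' → 𝒟) : (T.cm σ).Sp n (fun e => f' (σ e)) (fun e => φ (σ e))
    (fun e => φ₀ (σ e)) C :=
  have t := tendsto_comap (f := σ) (x := X.l)
  ⟨⟨t.eventually s.r.q, s.r.u.imp fun _ h => ⟨h.1, t.eventually h.2⟩, s.r.el.cm σ⟩,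
    t.eventually s.cb, s.ev.cm σ, t.eventually s.dv⟩

end Sp

namespace PA
variable (h : T.PA n A p) (H : T.HD ν)
include h

theorem eng : T.Eng (V := fun d => Fm (ν d) (H.H d)) (fun d i => QI (T.F d i) (p d i)) n
    fun d i => aA (H.H d) (A d i) :=
  ⟨h.hn, fun a => (h.A a).clm (L := fun d => amp (H.H d)) (.of_le 1 fun _ => norm_amp1),
    h.pp.mono fun _ h i => ⟨(h i).2.mcA _, (h i).1.cls⟩⟩

theorem bsU {g : T.Fn} (s : T.Sp n f' φ φ₀ C) (hg : T.U g) (hs : ∀ᶠ d in X.l, ∀ i,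
    Continuous (g d i) ∧ ∀ x, g d i x ≠ 0 → 1 ≤ φ d i x) : T.U (N := fun d => Fm (ν d) (H.H d))
    fun d i y => fb (H.j d i) (bs (T.F d i) (A d i) (p d i) (g d i) (f' d i) y) := by
  obtain ⟨K, hK, h1⟩ := s.r.u
  obtain ⟨K', hK', h2⟩ := hg
  have p : 0 ≤ Fintype.card ι * (C 2 ^ 2 + (1 + |X.C 0|) * |C 2|) := by positivity
  refine ⟨|Cyc79.kB (|T.L| + 1) (1 + K + K' +
    Fintype.card ι * (C 2 ^ 2 + (1 + |X.C 0|) * |C 2|))|, abs_nonneg _, ?_⟩
  filter_upwards [h1, h2, hs, h.pp, s.cb, s.r.q, T.l4, H.iso, s.dv]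
    with d h1 h2 hs hp hc hq ht hi hd i y
  refine (Cyc79.norm_fb_le _ _).trans ((mul_le_of_le_one_left (norm_nonneg _)
    (norm_iso (hi i))).trans (le_trans ?_ (le_abs_self _)))
  exact (hp i).2.bs_kB ((ht i).mono (by linarith [le_abs_self T.L]))
    (by positivity) ⟨by linarith, (hs i).1, (Cb.sm (hq i)).continuous,
      fun x => (h2 i x).trans (by linarith), fun x => (h1 i x).trans (by linarith), _,
      (cu_of_dv (hc.2 i).1 (hd i)).mono (by linarith), (hs i).2, (hc.2 i).2⟩ y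

theorem cm {𝒟' : Type*} (σ : 𝒟' → 𝒟) : (T.cm σ).PA n (fun e => A (σ e)) fun e => p (σ e) :=
  ⟨h.hn, (tendsto_comap (f := σ)).eventually h.pp, fun a => (h.A a).cm σ, h.p.cm σ⟩

theorem st1 (s : T.Sp n f' φ φ₀ C) {u : ∀ d i, Sec (T.S d i).I (triv (T.S d i).M (Eu (ν d)))}
    (hu : ∀ᶠ d in X.l, ∀ i, ‖(T.F d i).toH 0 _ (u d i)‖ ≤ 1)
    (e : X.Ev fun d x => (u d true).1 (T.ψ d true x) = (u d false).1 (T.ψ d false x)) :
    X.Pr (N := fun d => Eu (ν d)) T.ρ 4 fun d i x => th 10 (φ₀ d) x • (T.F d i).res (A d i)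
      (fun y => f' d i y • p d i y ((u d i).1 y)) (T.ψ d i x) := by
  have hn := h.hn
  obtain ⟨n, rfl⟩ : ∃ m, n = m + 1 := ⟨n - 1, by omega⟩
  obtain ⟨K, hK, h1⟩ := s.r.u
  have k := (((h.pp.and s.r.q).and h1).and hu).mono fun d h i =>
    lb_res (h.1.1.1 i).1 (h.1.1.2 i) (h.1.2 i) (u d i) (h.2 i)
  have sk := h.pp.mono fun e h i => (h i).1.sk
  have e1 : T.EL (N := fun d => Eu (ν d)) 0 fun d i => (u d i).1 :=
    Pr.of_eq T.lw (fun i => hk0 (g := fun d i => (u d i).1)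
      (k.mono fun d h => ⟨(u d i).2.1, (h i).1⟩)) e
  have e2 := EL.res (V := fun d => Eu (ν d)) (by omega) n.zero_le h.A ((sk.and k).mono fun e h i =>
    ⟨h.1 i, (h.2 i).2.1⟩) (fun i => hk0 (N := fun d => Eu (ν d)) (g := fun d i => (T.F d i).res (A d i)
      fun y => f' d i y • p d i y ((u d i).1 y)) (k.mono fun e h => ⟨(h i).2.1.1, (h i).2.2⟩))
    (s.r.el.smul (by omega) (Nat.zero_le _) (h.p.app (by omega) (Nat.zero_le _) e1))
  exact lrT (V := fun d => Eu (ν d)) (k := 2) (by omega) (by omega) h.A sk s.bk s.one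
    (((s.two 1).and (.of_ev (P := fun _ _ => _) (k.mono fun _ h _ => h))).mono
      fun e x h hx i => ((h.2 i).2.1.2.2 _).trans (by simp only [(h.1 hx i).1, zero_smul]))
    ((Pr.same T.lw (Hk.of_Bk (s.bk 0 7))).smul le_rfl (Nat.zero_le _) (e2.of_le (Nat.zero_le _)))

/-- **stage 1**: testing against a dense set -/
theorem bs0 (s : T.Sp n f' φ φ₀ C) : X.Pr (N := fun d => Fm (ν d) (H.H d)) T.ρ 0
    fun d i x => th 10 (φ₀ d) x • fb (H.j d i)
      (bs (T.F d i) (A d i) (p d i) (cf 1 1 (φ d i)) (f' d i) (T.ψ d i x)) := by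
  have sm : ∀ᶠ d in X.l, ∀ i, Sm (T.S d i).I fun y => fb (H.j d i)
      (bs (T.F d i) (A d i) (p d i) (cf 1 1 (φ d i)) (f' d i) y) :=
    .of_forall fun d i => (fb (H.j d i)).contMDiff.comp (Cyc79.sm_fld _ _)
  have hb := fun i => (Hk.of_Bk (s.bk 10 7)).smulR le_rfl (Nat.zero_le _)
    ((h.bsU H s ⟨1, zero_le_one, .of_forall fun _ _ _ => Cyc79.cf_abs _ _ _⟩ (s.sep.and s.cb |>.mono
      fun d h i => ⟨(Cb.sm (h.1 i).1).continuous, fun _ e => le_of_not_ge fun k =>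
        e (cf_zero zero_le_one k)⟩)).hk sm i)
  refine ⟨hb, ?_⟩
  obtain ⟨L, hL, hd⟩ := H.dn
  let σ : {e : Σ d, H.H d × ∀ i, Sec (T.S d i).I (triv (T.S d i).M (Eu (ν d))) // ‖e.2.1‖ ≤ 1 ∧
      (∀ i, adjoint (H.j e.1 i) e.2.1 = (T.F e.1 i).toH 0 _ (e.2.2 i)) ∧ ∀ x ∈ X.bd L e.1,
        (e.2.2 true).1 (T.ψ e.1 true x) = (e.2.2 false).1 (T.ψ e.1 false x)} → 𝒟 := fun e => e.1.1
  have e3 := (h.cm σ).st1 (s.cm σ) (u := fun e => e.1.2.2)
    (((tendsto_comap (f := σ)).eventually H.iso).mono fun e h i => (congrArg _ (e.2.2.1 i)).ge.trans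
      ((ContinuousLinearMap.le_opNorm _ _).trans (mul_le_one₀
        ((LinearIsometryEquiv.norm_map _ _).trans_le (norm_iso (h i))) (norm_nonneg _) e.2.1)))
    ⟨L, hL, .of_forall fun e => e.2.2.2⟩
  obtain ⟨L₁, hL₁, K₁, hK₁, e4⟩ := Hk.bd (k := 0) e3.d
  have am : Ub X.l fun d => ‖amp (κ := ν d) (H.H d)‖ := .of_le 1 fun _ => norm_amp1
  have hn := h.hn
  have e6 := Hk.bil am h.p.d (hb false) (k := 0) (Nat.zero_le _) le_rfl (by omega)
  simp only [Pi.one_apply, mul_one] at e6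
  have e7 := Hk.bilR (k := 0) (by omega) (Nat.zero_le _) am (h.p.b true) ((hb true).sub (hb false))
  obtain ⟨L₂, hL₂, e5⟩ := s.two 10
  refine ((hk_of_norm e7 T.lw (K := 4 * K₁) (by positivity) ⟨L₁ + L₂, by positivity, ?_⟩).add e6).congr
    (.of_ev ((h.pp.and s.sep).mono fun d h x => ?_))
  swap
  · have q := fun i => (((h.1 i).1.qi_bs (h.2 i)).fb (H.j d i)).2 (T.ψ d i x)
    exact amp_split _ _ (q true) (q false)
  filter_upwards [eventually_comap.1 e4, e5, hd, h.pp, s.sep] with d e4 e5 hd hp sp x hx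
  have e5 := e5 x (Nd18.Dp_mono (by linarith) hx)
  refine (norm_of_dense hd ((hp true).2.sym _) ((hp true).2.idem _)
    ((hp true).2.rk _) fun k ⟨u, u1, u2⟩ hk => ?_).trans_eq (mul_assoc ..).symm
  have c : ∀ i (v : Fm (ν d) _), ct k (fb (H.j d i) v) = ct ((T.F d i).toH 0 _ (u i)) v :=
    fun i v => by rw [← u1, ← Cyc79.ct_fb, ContinuousLinearMap.adjoint_adjoint]
  refine le_of_eq_of_le (congrArg _ ?_)
    (e4 ⟨⟨d, k, u⟩, hk, u1, u2⟩ rfl x (Nd18.Dp_mono (by linarith) hx)).2.2.bd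
  simp only [map_sub, map_smul, c, fun i => Cyc79.ct_bs (hp i).1.toOk (sp i) (hp i).1.cp]
  by_cases e : th 10 (φ₀ d) x = 0
  · simp [σ, e]
  · simp only [fun i => (e5 (subset_tsupport _ e) i).2.self_of_nhds, one_smul]
    rfl

/-- **stage 2**: the transported base fields -/
theorem bsE (s : T.SepT n f f') : (∀ᶠ d in X.l, ∀ i, Sep (T.F d i).toPre (f d i) (f' d i)) ∧
    T.EP (N := fun d => Fm (ν d) (H.H d)) (fun d i => QI (T.F d i) (p d i)) n
      fun d i y => fb (H.j d i) (bs (T.F d i) (A d i) (p d i) (f d i) (f' d i) y) := by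
  obtain ⟨hf, φ, φ₀, C, s, h3⟩ := s
  have hn := h.hn
  obtain ⟨n, rfl⟩ : ∃ m, n = m + 2 := ⟨n - 2, by omega⟩
  have sp : ∀ᶠ d in X.l, ∀ i, Sep (T.F d i).toPre (f d i) (f' d i) :=
    (((s.cb.and s.r.q).and hf.q).and h3).mono fun d h i => ⟨h.1.2 i, h.1.1.2 i, φ d i,
      ⟨_, (h.1.1.1.2 i).1⟩, fun x e => by linarith [h.2 i x e], (h.1.1.1.2 i).2⟩
  refine ⟨sp, (sp.and h.pp).mono fun d h i => ((h.2 i).1.qi_bs (h.1 i)).fb _, h.bsU H s hf.u
    ((hf.q.and h3).mono fun d h i => ⟨(Cb.sm (h.1 i)).continuous, fun x e => by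
      linarith [h.2 i x e]⟩), ?_⟩
  have e := lrT (k := n) (n := n + 1) (by omega) (by omega) (h.eng H).el
    ((h.eng H).cls.mono fun _ h i => (h i).1.sk) (θ := fun j d => th (j + 10) (φ₀ d))
    (R := fun d i y => fb (H.j d i) (bs (T.F d i) (A d i) (p d i) (cf 1 1 (φ d i)) (f' d i) y))
    (fun j => s.bk _) (fun j => by simpa only [add_right_comm j 1] using s.one (j + 10))
    (((s.two (1 + 10)).and (.of_ev (P := fun _ _ => _) ((h.pp.and s.sep).mono fun _ h _ => h))).mono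
      fun d x h hx i => ?_) (h.bs0 H s)
  · refine (Pr.smul (by omega) le_rfl hf.el e).congr ((s.ev.and (.of_ev (P := fun _ _ => _)
      ((((h.pp.and s.sep).and sp).and h3).mono fun _ h _ => h))).mono fun d x h i => ?_)
    beta_reduce
    rw [Cyc79.bs_mul (h.2.1.1.1 i).1.toOk (h.2.1.1.2 i) (h.2.1.1.1 i).1.cp (h.2.1.2 i)
      (g := f d i) fun z => ?_, map_smul]
    · by_cases e : f d i (T.ψ d i x) = 0
      · simp [e]
      · rw [th_one (le_trans (sub_le_self _ (by positivity)) (h.1 i ▸ h.2.2 i _ e)), one_smul]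
    · by_cases e : f d i z = 0
      · simp [e]
      · rw [cf_one (by linarith [h.2.2 i z e]), mul_one]
  · rw [Eqv71.itw_lap (frm _) (.of_forall (Cyc79.itw_fb _)) contMDiffAt_const
      (fun a => Cyc79.sm_aA (h.2.1 i).1.mc.sm a _) (Cyc79.fi_bs (h.2.1 i).1.toOk (h.2.2 i) (h.2.1 i).1.cp
        |>.sm _), ← map_add,
      Cyc79.bs_hom (h.2.1 i).1.toOk (h.2.1 i).1.cp (h.2.2 i) (h.1 hx i).2, map_zero]

end PA
end Tw

end Crest.Agent.X212.Rsv69
end
end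

-- ▼ part X212/Rsv69/Cyc

/-! Row 212, RESP (helper69): the cyclic seeds of a pair (the section `fib` follows Hd34/Fin). -/

set_option autoImplicit false
set_option linter.unusedSectionVars false
set_option maxSynthPendingDepth 3
noncomputable section
open scoped Manifold ContDiff Topology InnerProductSpace
open MeasureTheory Set Function Filter Real

namespace Crest.Agent.X212.Rsv69
open Rsp69
open An Sob92 Wz78 Dgr80
open Cyc79 hiding tpL cf norm_adR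
open Wrd81 (wd)

section gen
variable {E : Type} [NormedAddCommGroup E] [NormedSpace ℝ E] [FiniteDimensional ℝ E]
  [MeasurableSpace E] [BorelSpace E]
  {HM : Type} [TopologicalSpace HM] {I : ModelWithCorners ℝ E HM} [I.Boundaryless]
  {M : Type} [TopologicalSpace M] [ChartedSpace HM M] [IsManifold I ∞ M]
  [MeasurableSpace M] [T2Space M] [BorelSpace M] [SecondCountableTopology M]
  {ι : Type} [Fintype ι] {𝒟 : Type*} {lam : Type} [Fintype lam]

section fib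
variable {ν : Type} [Fintype ν] [DecidableEq ν] {W : Type}
  [NormedAddCommGroup W] [InnerProductSpace ℝ W] [CompleteSpace W]
  {K K' : Type} [NormedAddCommGroup K] [InnerProductSpace ℝ K] [CompleteSpace K]
  [NormedAddCommGroup K'] [InnerProductSpace ℝ K'] [CompleteSpace K']
  (F : Fr I M ι) (A : ι → M → En ν) (r : CL W (En ν))

/-- words on the fibre `Fm ν K` -/
def wK (s : M → Fm ν K) (w : List (La M)) : M → Fm ν K := wd (sl F (aA K A)) s (w.map (laV _))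

/-- `gc` on the fibre `Fm ν K` -/
def gK (s : M → Fm ν K) (w : List (La M)) (l : M → Fm ν K) : M → Fm ι W :=
  gc F (aA K A) (amp K ∘L r) s (w.map (laV _)) l

/-- `gh` on the fibre `Fm ν K` -/
def hK (b b' : M → Fm ν K) (x x' w w' : List (La M)) (ξ : M → W) (z : M) : Fm ι W :=
  gK F A r b' (w ++ x) (fun y => (amp K ∘L r) (ξ y) (wK F A b' (w' ++ x) y)) z +
    gK F A r b x' (bk F (aA K A) ((w ++ x).map (laV _)) fun y =>
      (amp K ∘L r) (ξ y) (wK F A b w' y)) z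

theorem norm_ampL : ‖amp K ∘L r‖ ≤ ‖r‖ := ContinuousLinearMap.opNorm_le_bound _ (norm_nonneg _)
  fun ξ => (ContinuousLinearMap.opNorm_le_bound _ (norm_nonneg _) (norm_amp _)).trans (r.le_opNorm ξ)

variable {F A} {R : K →L[ℝ] K'} (hR : ∀ h h', ⟪R h, R h'⟫_ℝ = ⟪h, h'⟫_ℝ) (hA : Ok F A)
  {S T : K →L[ℝ] KK F.toPre ν} {s l : M → Fm ν K} {w : List (La M)}
include hR

theorem tp_fb (a b : Fm ν K) : tp (amp K' ∘L r) (fb R a) (fb R b) = tp (amp K ∘L r) a b :=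
  ext_inner_right ℝ fun ξ => by
    simp only [inner_tp, ContinuousLinearMap.comp_apply, ← fb_amp, PiLp.inner_apply, fb_apply, hR]

include hA

theorem gK_fb (hs : FI F S s) (hw : ∀ t ∈ w, La.OK F t) : ∀ {T l}, FI F T l →
    gK F A r (fun z => fb R (s z)) w (fun z => fb R (l z)) = gK F A r s w l := by
  induction w with
  | nil => exact fun _ => rfl
  | cons t w ih =>
    intro T l hl
    have hw' : ∀ u ∈ w, La.OK F u := fun u hu => hw u (by simp [hu])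
    have ht := hw t (by simp)
    have h1 := ih hw' (hl.la hA ht)
    have g : ∀ {T l} {t : La M}, FI F T l → La.OK F t → sl F (aA K' A) (laV _ t)
        (fun z => fb R (l z)) = fun z => fb R (sl F (aA K A) (laV _ t) l z) := fun hl ht =>
      hl.wd_fb hA (w := [_]) (by simpa using ht) R
    rw [← g hl ht, ← slT_laV, ← slT_laV] at h1
    cases t with
    | mul f => exact h1
    | G =>
      have h2 := hs.wd hA hw'
      have e1 : F.res _ _ = _ := g (t := .G) hl trivial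
      have e2 : F.res _ _ = _ := g (t := .G) h2 trivial
      funext x
      refine congrArg₂ (· - ·) (congrFun h1 x) ?_
      rw [hs.wd_fb hA hw', e1, e2]
      simp only [cur, fb_nab (hl.la hA ht).sm, fb_nab (h2.la hA ht).sm, tp_fb r hR]
      rfl

theorem hK_fb {x x' w' : List (La M)} {ξ : M → W} (hs : FI F S s) (hl : FI F T l)
    (hx : ∀ t ∈ x, La.OK F t) (hx' : ∀ t ∈ x', La.OK F t) (hw : ∀ t ∈ w, La.OK F t)
    (hw' : ∀ t ∈ w', La.OK F t) (hξ : F.Cb ξ) :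
    hK F A r (fun z => fb R (s z)) (fun z => fb R (l z)) x x' w w' ξ =
      hK F A r s l x x' w w' ξ := funext fun z => by
  have a : ∀ {w}, (∀ t ∈ w, La.OK F t) → ∀ t ∈ w ++ x, La.OK F t := fun hw t ht =>
    (List.mem_append.1 ht).elim (hw t) (hx t)
  have b : ∀ t ∈ (w ++ x).reverse, La.OK F t := fun t ht => a hw t (List.mem_reverse.1 ht)
  have h1 := (hl.wd hA (a hw')).op (Cb_clm r hξ)
  have h2 := (hs.wd hA hw').op (Cb_clm r hξ)
  simp only [hK, wK, bk_laV, hl.wd_fb hA (a hw'), hs.wd_fb hA hw', ContinuousLinearMap.comp_apply,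
    ← fb_amp, h2.wd_fb hA b, gK_fb r hR hA hl (a hw) h1, gK_fb r hR hA hs hx' (h2.wd hA b)]

end fib

theorem gh_eq {r : ℕ} (F : Fr I M ι) (c : Cfg M ι lam r) (f f' : M → ℝ) (w w' : List (La M))
    (l : M → c.m.A) : gh F c f f' w w' (adl F c l) =
      hK F (c.m.adW c.W) (adR (Fin c.m.N)) (bs F (c.m.adW c.W) c.m.pg f f')
        (bs F (c.m.adW c.W) c.m.pg f' f) (xw f f') (xw f' f) w w' fun x => c.m.pg x (l x) := rfl

namespace Tw
open Rsp69.Cx
variable {X : Cx I M ι 𝒟} {T : Tw X lam} {n : ℕ} {N : 𝒟 → ℕ}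
  {w w' x x' : ∀ d i, List (La (T.S d i).M)}
  {ν : 𝒟 → Type} [∀ d, Fintype (ν d)] [∀ d, DecidableEq (ν d)]
  {A : ∀ d i, ι → (T.S d i).M → En (ν d)} {p : T.Sc fun d => En (ν d)} {f f' : T.Fn}
  {W : 𝒟 → Type} [∀ d, NormedAddCommGroup (W d)] [∀ d, InnerProductSpace ℝ (W d)]
  [∀ d, CompleteSpace (W d)] {K : 𝒟 → Type} [∀ d, NormedAddCommGroup (K d)] [∀ d, InnerProductSpace ℝ (K d)]
  [∀ d, CompleteSpace (K d)]

theorem Fa.laOK (hw : Fa (T.LaY n) w) : ∀ᶠ d in X.l, ∀ i, ∀ t ∈ w d i, La.OK (T.F d i) t := by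
  induction hw with
  | nil => simp
  | cons ht _ ih =>
    cases ht with
    | mul hf => exact (hf.q.and ih).mono fun _ h i => List.forall_mem_cons.2 ⟨h.1 i, h.2 i⟩
    | G => exact ih.mono fun _ h i => List.forall_mem_cons.2 ⟨trivial, h i⟩

theorem Fa.slkQ (hn : 7 ≤ n) (hw : Fa (T.LaY n) w) : Fa (T.SLk (V := fun d => Fm (ν d) (K d))
    (fun d i => QI (T.F d i) (p d i)) n) fun d i => (w d i).map (laV _) := hw.map fun t ht => by
  cases ht with
  | @mul f hf =>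
    have e : ∀ u, T.EP (N := fun d => Fm (ν d) (K d)) (fun d i => QI (T.F d i) (p d i)) n u →
        T.EP (N := fun d => Fm (ν d) (K d)) (fun d i => QI (T.F d i) (p d i)) n
          fun d i x => f d i x • u d i x := fun u hu =>
      ⟨(hf.q.and hu.q).mono fun _ h i => (ok_laV (t := .mul _) (h.1 i) _ (h.2 i)).1,
        hf.u.bil (B := fun d => ContinuousLinearMap.lsmul ℝ ℝ (E := Fm (ν d) (K d)))
          (.of_le 1 fun _ => ContinuousLinearMap.opNorm_lsmul_le) hu.u, hf.el.smul hn le_rfl hu.el⟩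
    exact .inl ⟨_, rfl, e, fun u hu => (e u hu).congr' fun _ _ _ => by
      simp [ContinuousLinearMap.one_def]⟩
  | G => exact .inr rfl

theorem Eng.hK (h : T.Eng (V := fun d => Fm (ν d) (K d)) (fun d i => QI (T.F d i) (p d i)) n
      fun d i => aA (K d) (A d i)) {r : ∀ d, CL (W d) (En (ν d))}
    (hr : Ub X.l fun d => ‖r d‖) {b b' : T.Sc fun d => Fm (ν d) (K d)}
    (hb : T.EP (fun d i => QI (T.F d i) (p d i)) n b)
    (hb' : T.EP (fun d i => QI (T.F d i) (p d i)) n b') (hx : Fa (T.LaY n) x) (hx' : Fa (T.LaY n) x')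
    (hw : Fa (T.LaY n) w) (hw' : Fa (T.LaY n) w') {ξ : T.Sc W} (hξ : T.EC n ξ)
    (e : ∀ d i z, p d i z * (r d (ξ d i z) * p d i z) = r d (ξ d i z) * p d i z) :
    T.EL (N := fun d => Fm ι (W d)) n fun d i =>
      hK (T.F d i) (A d i) (r d) (b d i) (b' d i) (x d i) (x' d i) (w d i) (w' d i) (ξ d i) := by
  have hr : Ub X.l fun d => ‖amp (K d) ∘L r d‖ :=
    hr.imp fun _ h => ⟨h.1, h.2.mono fun d h => (norm_ampL (r d)).trans h⟩
  have m : ∀ {u : T.Sc fun d => Fm (ν d) (K d)}, T.EP (fun d i => QI (T.F d i) (p d i)) n u →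
      T.EP (N := fun d => Fm (ν d) (K d)) (fun d i => QI (T.F d i) (p d i)) n
        fun d i z => (amp (K d) ∘L r d) (ξ d i z) (u d i z) := fun hu =>
    ⟨(hξ.q.and hu.q).mono fun d h i => (h.2 i).op (Cb_clm (r d) (h.1 i)) (e d i), hξ.u.bil hr hu.u,
      hξ.el.bil h.h7 le_rfl hr hu.el⟩
  exact (h.gc hr hb' ((hw.append hx).slkQ h.h7) (m (h.wd ((hw'.append hx).slkQ h.h7) hb'))).add
    (h.gc hr hb (hx'.slkQ h.h7) (h.bk ((hw.append hx).slkQ h.h7) (m (h.wd (hw'.slkQ h.h7) hb))))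

namespace CF.OK
variable {κ : T.CF N} {Z : ∀ d i, Set (T.S d i).M} (h : κ.OK Z n)
include h

theorem pa : T.PA n κ.A fun d i => (κ.m d i).pg :=
  ⟨h.hn, h.gd.mono fun _ h i => ⟨(h i).pp, (h i).toCO.pq⟩, h.elA, h.pg.el⟩

/-- **the cyclic seeds** -/
theorem cyc (H : T.HD fun d => Fin (N d) × Fin (N d)) (s : T.SepT n f f') (s' : T.SepT n f' f)
    (hw : Fa (T.LaY n) w) (hw' : Fa (T.LaY n) w') :
    κ.SedS n fun d i => Cy.sed ⟨f d i, f' d i, w d i, w' d i⟩ (T.F d i) := by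
  obtain ⟨sp, hb⟩ := h.pa.bsE H s
  obtain ⟨-, hb'⟩ := h.pa.bsE H s'
  have hE := h.pa.eng H
  have x1 : Fa (T.LaY n) fun d i => xw (f d i) (f' d i) :=
    .cons (.mul s.1) (.cons .G (.cons (.mul s'.1) .nil))
  have x2 : Fa (T.LaY n) fun d i => xw (f' d i) (f d i) :=
    .cons (.mul s'.1) (.cons .G (.cons (.mul s.1) .nil))
  have a := hE.wd ((hw.append x1).slkQ h.h7) hb'
  have b := hE.wd ((hw'.append x1).slkQ h.h7) hb'
  have hr : Ub X.l fun d => ‖tpL (amp (H.H d) ∘L adR (Fin (N d)))‖ :=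
    .of_le 2 fun _ => (norm_tpL _).trans ((norm_ampL _).trans norm_adR)
  have k := (((h.pa.pp.and sp).and H.iso).and hw.laOK).and hw'.laOK
  refine ⟨EP.congr (h.pg.app (N := κ.SA) (N' := κ.SA) h.h7 le_rfl
    ⟨(a.q.and b.q).mono fun _ h i => Cb_bil _ (h.1 i).cb (h.2 i).cb, a.u.bil hr b.u,
      a.el.bil h.h7 le_rfl hr b.el⟩) (k.mono fun d k i => funext fun z => ?_), fun l hl => ?_,
    fun _ _ => EL.zero⟩
  · have o := (k.1.1.1.1 i).1
    have f2 := o.fi (k.1.1.1.2 i).symm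
    have ok := fun {w} => Cy.OK.W (d := ⟨f d i, f' d i, _, _⟩) (w := w) ⟨k.1.1.1.2 i, k.1.2 i, k.2 i⟩
    rw [f2.wd_fb o.toOk (ok (k.1.2 i)), f2.wd_fb o.toOk (ok (k.2 i))]
    exact congrArg _ (tp_fb _ (k.1.1.2 i) _ _)
  · have hξ := h.pg.app (N := κ.SA) (N' := κ.SA) h.h7 le_rfl hl
    have e : ∀ {w w'}, Fa (T.LaY n) w → Fa (T.LaY n) w' → T.EL (N := κ.S1) n fun d i =>
        gh (T.F d i) (κ.c d i) (f d i) (f' d i) (w d i) (w' d i) (adl _ _ (l d i)) := fun hw hw' =>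
      (hE.hK (r := fun d => adR (Fin (N d))) (.of_le 2 fun _ => norm_adR) hb hb' x1 x2 hw hw' hξ
        fun d i z => pg_adR z _).congr
        (((((h.pa.pp.and sp).and H.iso).and hw.laOK).and (hw'.laOK.and hξ.q)).mono fun d k i =>
          (hK_fb (adR _) (k.1.1.2 i) (k.1.1.1.1 i).1.toOk ((k.1.1.1.1 i).1.fi (k.1.1.1.2 i))
            ((k.1.1.1.1 i).1.fi (k.1.1.1.2 i).symm) (k.1.1.1.2 i).ok (k.1.1.1.2 i).symm.ok
            (k.1.2 i) (k.2.1 i) (k.2.2 i)).trans (gh_eq (T.F d i) (κ.c d i) _ _ _ _ (l d i)).symm)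
    have e' := (e hw' hw).sub (e hw hw')
    exact e'

end CF.OK
end Tw
end gen

open Nd18 Nka63

variable {E3 : Type} [NormedAddCommGroup E3] [NormedSpace ℝ E3] [FiniteDimensional ℝ E3]
  [MeasurableSpace E3] [BorelSpace E3]
  {H3 : Type} [TopologicalSpace H3] {I3 : ModelWithCorners ℝ E3 H3} [I3.Boundaryless]
  {Y : Type} [TopologicalSpace Y] [ChartedSpace H3 Y] [IsManifold I3 ∞ Y] [T2Space Y]
  [MeasurableSpace Y] [BorelSpace Y] [SecondCountableTopology Y] [CompactSpace Y]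
  {κ : Type} [Fintype κ] {lam : Type} [Fintype lam] {D : YD I3 Y κ lam} {𝒟 : Type*}

theorem dv_ex2 {S : Mf (Option κ) lam} (K : Nk D S.B S.G) {f : Y → ℝ} (hf : Sm I3 f)
    (hv : D.Z.IsVol) (hv' : S.G.F.IsVol) {C : ℕ → ℝ} (ht : D.Z.Tame C) {a : Option κ} {x : S.M}
    (hx : S.G.F.D a (ex2 K f) x ≠ 0) : |S.G.F.dv a x| ≤ |C 0| := by
  obtain ⟨A, hA⟩ := bd_dtf
  obtain ⟨A', hA'⟩ := Cht98.Cb_fst D.F.toPre (Cb_of_compact (F := D.F.toPre) hf)
  have h1 := (hA K.p K.q).cyl D.F.toPre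
  have h2 : x ∈ K.ψ.target := by_contra fun e => hx (by
    rw [ex2, D_push K one_half_pos (u := fun z => deriv (tf K.p K.q) z.2 • f z.1)
      (h1.1.smul hA'.1) fun z hz => by
      rw [dtf_zero K.len hz, zero_smul], push_of_notMem K _ e])
  rw [← K.ψ.right_inv h2, ← (Pj41.fRel_of_iso K.iso).dv (K.ψ.map_target h2) hv hv']
  exact ((ht.dv a).2 0 [] le_rfl _).trans (le_abs_self _)

namespace NP
open Rsp69.Cx Rsv69.Tw
variable (P : NP D 𝒟) {n₀ : 𝒟 → ℕ} {n : ℕ}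

theorem sepT {f f' : Y → ℝ} (h : Sep D.F.toPre f f') :
    P.tw.SepT n (fun d i => (P.K d i).ext f) fun d i => (P.K d i).ext f' := by
  obtain ⟨h1, h2, φ, h3, h4, h5⟩ := h
  have h6 : D.F.Cb fun y => (3 : ℝ) • φ y := Cb_smul (Cb_const _) h3
  obtain ⟨C, hC⟩ := cbs_ex2 D h6.choose_spec.1
  obtain ⟨C', hC'⟩ := Cht98.Cb_fst D.F.toPre h6
  have e := fun d i x (hx : (P.K d i).χ x ≠ 0) => ex2_eq (P.K d i) (fun y => (3 : ℝ) • φ y)
    (mem_O_of_χ _ hx)
  refine ⟨P.ext h1.choose_spec.1, fun d i => ex2 (P.K d i) fun y => (3 : ℝ) • φ y,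
    fun _ z => (3 : ℝ) • φ z.1, fun k => max (C k) (C' k), ⟨P.ext h2.choose_spec.1,
      .of_forall fun d => ⟨⟨hC'.1, fun k => CB_mono (hC'.2 k) (le_max_right _ _)⟩, fun i =>
        ⟨⟨(hC (P.K d i)).1, fun k => CB_mono ((hC (P.K d i)).2 k) (le_max_left _ _)⟩,
          fun x hx => ?_⟩⟩, (P.dp 2).mono fun d z h i => ?_, P.tame.mono fun d h i a x hx => ?_⟩,
    .of_forall fun d i x hx => ?_⟩
  · rw [e d i x (left_ne_zero_of_smul hx), smul_eq_mul]
    linarith [h5 _ (right_ne_zero_of_smul hx)]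
  · rw [e d i _ (by
      rw [(P.K d i).χ_one (x := (P.K d i).ψ z) (by rw [Nk.dp, mem_preimage, (h i).2.2.1]; exact (h i).2.1)]
      exact one_ne_zero), (P.K d i).ψ.left_inv (h i).1]
  · exact dv_ex2 (P.K d i) h6.choose_spec.1 P.hD.G.vol (h i).1 P.tz hx
  · beta_reduce
    rw [e d i x (left_ne_zero_of_smul hx), smul_eq_mul]
    linarith [h4 _ (right_ne_zero_of_smul hx)]

theorem hd (ν : 𝒟 → Type) [∀ d, Fintype (ν d)] : Nonempty (P.tw.HD ν) :=
  exists_hd ν (χ := fun d i => (P.K d i).χ) (.of_forall fun d i => ⟨(P.K d i).cb_χ,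
    Adm.mono (K := (P.K d i).dp 1) ⟨(P.K d i).dp_sub one_pos, by
      convert (isClosed_Dp (p := (P.K d i).p) (q := (P.K d i).q) (d := 1)).preimage
        (continuous_snd (X := Y)) using 1
      ext z
      refine ⟨fun h => show z.2 ∈ Dp _ _ 1 from (P.K d i).tm_ψ z h.1 ▸ h.2, fun h => ?_⟩
      have := (P.K d i).mem_src.2 (Dp_sub one_pos h)
      exact ⟨this, show _ ∈ Dp _ _ 1 from ((P.K d i).tm_ψ z this).symm ▸ h⟩⟩
      (isClosed_tsupport _) (tsupport_χ _)⟩)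
    ((P.dp 2).mono fun d z h i => (P.K d i).χ_one
      (by rw [Nk.dp, mem_preimage, (h i).2.2.1]; exact (h i).2.1))

variable {P}

/-- **the cyclic seeds of a pair of necks** -/
theorem nc {c : P.tw.CF n₀} {Z : ∀ d i, Set (P.S d i).M} (h : c.OK Z n) : NC c n := fun _ he =>
  let ⟨H⟩ := P.hd fun d => Fin (n₀ d) × Fin (n₀ d)
  h.cyc H (P.sepT he.sep) (P.sepT he.sep.symm) (P.las fun t ht => laOK_of (he.w t ht))
    (P.las fun t ht => laOK_of (he.w' t ht))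

end NP

end Crest.Agent.X212.Rsv69
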